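import Vale.Agent.P281Z.Ky.Basic
import Vale.Agent.P281Z.Mf.Mod

/-!
# P281Z, block JB, the analytic half: definitions and statements
-/

open scoped Manifold ContDiff Topology ComplexOrder ENNReal Matrix
open MeasureTheory Filter Set Metric
open Vale.Agent.P272.K (Cm Chart At IsHermitian IsKahler cHess)
open Vale.Agent.P301.H599 (Fm)
open Vale.Agent.P277Z.Pos (nsq)
open Vale.Agent.P277Z.Van (IsVol)
open Vale.Agent.P284Z (LPsh)
open Vale.Agent.P281Z.Ky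

noncomputable section

namespace Vale.Agent.P281Z.Jb

variable {D N : ℕ}

/-- the lift of `pr` through `π` is holomorphic near compact sets whose images cover `W - π⁻¹ Z` -/
def HP (P : Mf D) (W K : Mf N) (pr : P.X → K.X) (π : W.X → K.X) (Z : Set K.X) : Prop :=
  ∀ x₀ : W.X, ∃ (C U : Set P.X) (f : P.X → W.X), IsCompact C ∧ IsOpen U ∧ C ⊆ U ∧
    (∀ c ∈ U, HolA D N f c ∧ π (f c) = pr c) ∧ ∀ᶠ x in 𝓝 x₀, π x ∉ Z → x ∈ f '' C

/-- **LOWK** -/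
def LOWK : Prop :=
  ∀ (N d : ℕ) (P : Mf (N + d)) (W K : Mf N) (pr : P.X → K.X) (π : W.X → K.X) (Z : Set K.X),
    P.Kah → HolM (N + d) N pr → Function.Surjective pr → Modif N π Z → HP P W K pr π Z →
    Nonempty (KC N W.X)

/-- the Gram determinant -/
def gH (y : Cm D → Cm N) (z : Cm D) : ℝ := ((jc y z).map star * (jc y z)ᵀ).det.re

/-- the density which bounds the direct image current from below -/
def dens {X : Type} [TopologicalSpace X] [ChartedSpace (Cm D) X] (w : Fm D X) (y : X → Cm N)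
    (x : X) : ℝ := (gm w y x).det.re / (1 + (gm w y x).trace.re)

/-- `e₀` is the chart `e ∘ π⁻¹` -/
structure Inv {W K : Mf N} (π : W.X → K.X) (Z : Set K.X) (e : Chart N W.X) (e₀ : Chart N K.X) :
    Prop where
  cd : Cd e₀
  app : ∀ x ∈ e.source, π x ∉ Z → π x ∈ e₀.source ∧ e₀ (π x) = e x
  src : ∀ k ∈ e₀.source, k ∉ Z ∧ ∃ x ∈ e.source, π x = k

/-- the lower bound for the direct image of the density, on the subsets of `S` -/
def Low {P : Mf D} {K : Mf N} [MeasurableSpace P.X] (w : Fm D P.X) (μ : Measure P.X)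
    (pr : P.X → K.X) (e₀ : Chart N K.X) (c : ℝ) (S : Set (Cm N)) : Prop :=
  ∀ A, MeasurableSet A → A ⊆ S → A ⊆ e₀.target → ENNReal.ofReal c * volume A ≤
    ∫⁻ x in pr ⁻¹' (e₀.source ∩ e₀ ⁻¹' A), ENNReal.ofReal (dens w (fun x => e₀ (pr x)) x) ∂μ

/-- **CUT**: a cut off logarithm -/
def CUT : Prop :=
  ∀ (D : ℕ) (r : ℝ), 0 < r → ∃ η > (0 : ℝ), ∀ᶠ ε in 𝓝[>] (0 : ℝ), ∀ a : Cm D, ∃ v : Cm D → ℝ,
    ContDiff ℝ ∞ v ∧ tsupport v ⊆ closedBall a r ∧ (∀ z, (1 + cHess v z).PosSemidef) ∧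
    ∀ z ∈ ball a ε, (1 + cHess v z - ((η / ε ^ 2 : ℝ) : ℂ) • 1).PosSemidef

/-- **MON**: the monotonicity formula -/
def MON : Prop :=
  ∀ (D N : ℕ) (y : Cm D → Cm N) (K B : Set (Cm D)) (v : Cm D → ℝ) (κ : ℝ) (ψ : Fin N → ℂ → ℝ),
    IsCompact K → AnalyticOnNhd ℂ y K → MeasurableSet B → B ⊆ K → ContDiff ℝ ∞ v →
    tsupport v ⊆ K → 0 < κ → (∀ z ∈ K, (1 + cHess v z).PosSemidef) →
    (∀ z ∈ B, (1 + cHess v z - (κ : ℂ) • 1).PosSemidef) → (∀ a, ContDiff ℝ ∞ (ψ a)) →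
    (∀ a t, 0 ≤ ψ a t) → κ ^ D * ∫ z in B, (∏ a, ψ a (y z a)) * gH y z ≤
      κ ^ N * ∫ z in K, (∏ a, ψ a (y z a)) * gH y z

/-- **AREA**: the volume of the fibres near a regular point -/
def AREA : Prop :=
  ∀ N d : ℕ, ∃ c > (0 : ℝ), ∀ (y : Cm (N + d) → Cm N) (a : Cm (N + d)), AnalyticAt ℂ y a →
    Function.Surjective (fderiv ℂ y a) → ∀ᶠ ε in 𝓝[>] (0 : ℝ), ∀ᶠ δ in 𝓝[>] (0 : ℝ),
      ENNReal.ofReal (c * ε ^ (2 * d)) * volume (closedBall (y a) δ) ≤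
        ∫⁻ z in ball a ε ∩ y ⁻¹' closedBall (y a) δ, ENNReal.ofReal (gH y z)

/-- **LEL**: the lower bound for the volume of the fibres -/
def LEL : Prop :=
  ∀ (N d : ℕ) (y : Cm (N + d) → Cm N) (a : Cm (N + d)) (r : ℝ), 0 < r →
    AnalyticOnNhd ℂ y (closedBall a (2 * r)) → ∃ c > (0 : ℝ), ∀ S, MeasurableSet S →
      S ⊆ y '' closedBall a r → ENNReal.ofReal c * volume S ≤
        ∫⁻ z in closedBall a (2 * r) ∩ y ⁻¹' S, ENNReal.ofReal (gH y z)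

/-- **VOL**: the same on the manifolds -/
def VOL : Prop :=
  ∀ (N d : ℕ) (P : Mf (N + d)) (W K : Mf N) [MeasurableSpace P.X] [BorelSpace P.X]
    (w : Fm (N + d) P.X) (μ : Measure P.X) (pr : P.X → K.X) (π : W.X → K.X) (Z : Set K.X)
    (e : Chart N W.X) (e₀ : Chart N K.X), IsHermitian w → IsVol w μ → HolM (N + d) N pr →
    Modif N π Z → HP P W K pr π Z → Cd e → closedBall 0 5 ⊆ e.target → Inv π Z e e₀ →
    ∃ c > (0 : ℝ), Low w μ pr e₀ c (ball 0 4)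

/-- **INV** -/
def INV : Prop :=
  ∀ (N : ℕ) (W K : Mf N) (π : W.X → K.X) (Z : Set K.X) (e : Chart N W.X), Modif N π Z → Cd e →
    ∃ e₀, Inv π Z e e₀

/-- **OKS**: the current in a small chart -/
def OKS : Prop :=
  ∀ (D N : ℕ) (P : Mf D) (K : Mf N) [MeasurableSpace P.X] [BorelSpace P.X] (w : Fm D P.X)
    (μ : Measure P.X) (pr : P.X → K.X) (e₀ : Chart N K.X) (c : ℝ) (a : Cm N) (s : ℝ) (hs : 0 < s),
    IsKahler w → IsVol w μ → HolM D N pr → Function.Surjective pr → Cd e₀ → 0 ≤ c →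
    closedBall a (5 * s) ⊆ e₀.target → Low w μ pr e₀ c (ball a (5 * s)) →
    (cur w μ pr (e₀.transHomeomorph (aff a s hs.ne'))).Ok (ball 0 5) (c * s ^ 2)

/-- **EXT**: removable singularities -/
def EXT : Prop :=
  ∀ (N : ℕ) (U A : Set (Cm N)) (Q ρ : Cm N → ℝ), IsOpen U → LPsh Q U → ContinuousOn ρ U →
    (∀ z ∈ U, z ∈ A → ∃ g : Cm N → ℂ, AnalyticAt ℂ g z ∧ (∃ᶠ t in 𝓝 z, g t ≠ 0) ∧
      ∀ᶠ t in 𝓝 z, t ∈ A → g t = 0) →
    (∀ z ∈ U, z ∉ A → ∃ O ∈ 𝓝 z, LPsh (fun t => Q t * Real.exp (ρ t)) O) →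
    LPsh (fun t => Q t * Real.exp (ρ t)) U

end Vale.Agent.P281Z.Jb
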