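import Vale.Agent.P281Z.Jb.ADefs
import Vale.Agent.P272.K.INT.Dens
import Vale.Agent.P272.K.AMP.Prod.Calc

/-!
# P281Z, block JB: the volume of the fibres near a regular point
-/

open scoped Topology ENNReal Matrix ContDiff
open MeasureTheory Filter Set Metric Function
open Vale.Agent.P272.K (Cm)
open Vale.Agent.P272.K.Prod
open Vale.Agent.P281Z.Ky

noncomputable section

namespace Vale.Agent.P281Z.Jb

namespace Area

variable {N d : ℕ}

/-- an orthonormal basis of the kernel -/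
theorem exH (A : Matrix (Fin N) (Fin (N + d)) ℂ) (h : Surjective A.mulVec) :
    ∃ H : Matrix (Fin (N + d)) (Fin d) ℂ, Hᴴ * H = 1 ∧ A * H = 0 ∧ ∀ j i, ‖H j i‖ ≤ 1 := by
  let T : EuclideanSpace ℂ (Fin (N + d)) →ₗ[ℂ] (Fin N → ℂ) :=
    A.mulVecLin ∘ₗ (WithLp.linearEquiv 2 ℂ (Fin (N + d) → ℂ)).toLinearMap
  have h1 : LinearMap.range T = ⊤ := LinearMap.range_eq_top.2 fun w =>
    let ⟨u, hu⟩ := h w
    ⟨WithLp.toLp 2 u, hu⟩
  have h2 : Module.finrank ℂ (LinearMap.ker T) = d := by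
    have := T.finrank_range_add_finrank_ker
    rw [h1, finrank_top, finrank_euclideanSpace_fin, Module.finrank_fin_fun] at this
    omega
  let b := (stdOrthonormalBasis ℂ (LinearMap.ker T)).reindex (finCongr h2)
  refine ⟨Matrix.of fun j i => (b i).1 j, ?_, ?_, fun j i => ?_⟩
  · ext i k
    have := orthonormal_iff_ite.1 b.orthonormal i k
    rw [Submodule.coe_inner, PiLp.inner_apply] at this
    rw [Matrix.one_apply, ← this, Matrix.mul_apply]
    exact Finset.sum_congr rfl fun j _ => mul_comm _ _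
  · ext p i
    exact congrFun (b i).2 p
  · exact (PiLp.norm_apply_le (b i).1 j).trans (b.orthonormal.1 i).le

theorem det_rows {A : Matrix (Fin N) (Fin (N + d)) ℂ} {H : Matrix (Fin (N + d)) (Fin d) ℂ}
    {M : Matrix (Fin (N + d)) (Fin (N + d)) ℂ} (h1 : Hᴴ * H = 1) (h2 : A * H = 0)
    (h3 : M.submatrix finSumFinEquiv id = Matrix.fromRows A Hᴴ) :
    ‖M.det‖ ^ 2 = (A.map star * Aᵀ).det.re := by
  have k1 : (M * Mᴴ).submatrix finSumFinEquiv finSumFinEquiv =
      Matrix.fromRows A Hᴴ * (Matrix.fromRows A Hᴴ)ᴴ := by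
    rw [← h3]; rfl
  have k2 := Matrix.det_submatrix_equiv_self finSumFinEquiv (M * Mᴴ)
  rw [k1, Matrix.conjTranspose_fromRows_eq_fromCols_conjTranspose, Matrix.fromRows_mul_fromCols,
    Matrix.conjTranspose_conjTranspose, h1, h2, Matrix.det_fromBlocks_zero₁₂, Matrix.det_one,
    mul_one, Matrix.det_mul M, Matrix.det_conjTranspose, Complex.star_def, Complex.mul_conj'] at k2
  have k3 : A.map star * Aᵀ = (A * Aᴴ)ᵀ := by rw [Matrix.transpose_mul]; rfl
  rw [k3, Matrix.det_transpose, k2, ← Complex.ofReal_pow, Complex.ofReal_re]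

theorem norm_glue {w : Cm N} {s : Cm d} {r : ℝ} (hr : 0 ≤ r) (h : ‖w‖ ≤ r) (h' : ‖s‖ ≤ r) :
    ‖glue w s‖ ≤ r :=
  (pi_norm_le_iff_of_nonneg hr).2 fun i => by
    refine Fin.addCases (fun i => ?_) (fun i => ?_) i
    · rw [glue_castAdd]; exact (norm_le_pi_norm w i).trans h
    · rw [glue_natAdd]; exact (norm_le_pi_norm s i).trans h'

theorem vol (w : Cm N) {δ e : ℝ} (hδ : 0 ≤ δ) (he : 0 ≤ e) :
    ENNReal.ofReal (e ^ (2 * d)) * volume (closedBall w δ) ≤
      volume {u : Cm (N + d) | ‖fstP u - w‖ ≤ δ ∧ ‖sndP u‖ ≤ e} := by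
  have h : {u : Cm (N + d) | ‖fstP u - w‖ ≤ δ ∧ ‖sndP u‖ ≤ e} = Set.pi univ
      (Fin.append (fun p => closedBall (w p) δ) fun _ : Fin d => closedBall (0 : ℂ) e) := by
    ext u
    simp only [mem_ofPred_eq, pi_norm_le_iff_of_nonneg hδ, pi_norm_le_iff_of_nonneg he, Set.mem_pi,
      mem_univ, true_imp_iff, Fin.forall_fin_add, Fin.append_left, Fin.append_right,
      mem_closedBall, dist_eq_norm, sub_zero]
    rfl
  rw [h, volume_pi_pi, Fin.prod_univ_add, volume_pi_closedBall _ hδ, mul_comm]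
  simp only [Fin.append_left, Fin.append_right, Finset.prod_const, Finset.card_univ,
    Fintype.card_fin, Complex.volume_closedBall 0]
  rw [ENNReal.ofReal_pow he, pow_mul]
  gcongr
  refine le_mul_of_one_le_right' ?_
  exact_mod_cast (show (1 : ℝ) ≤ Real.pi by linarith [Real.pi_gt_three])

end Area

open Area

theorem area : AREA := by
  intro N d
  refine ⟨(1 / (d + 2)) ^ (2 * d) / 2, by positivity, fun y a hy hs => ?_⟩
  have hA : ∀ v, fderiv ℂ y a v = jc y a *ᵥ v := fun v =>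
    funext fun p => P272.K.QN.jm_mulVec hy.differentiableAt v p
  have h0 : Surjective (jc y a).mulVec := fun w => (hs w).imp fun u hu => (hA u).symm.trans hu
  obtain ⟨H, h1, h2, h3⟩ := exH _ h0
  let B : Cm (N + d) →L[ℂ] Cm d := LinearMap.toContinuousLinearMap (Matrix.toLin' Hᴴ)
  have hB : AnalyticAt ℂ (fun z => B (z - a)) a :=
    (B.analyticAt _).fun_comp (analyticAt_id.fun_sub analyticAt_const)
  have hB' : fderiv ℂ (fun z => B (z - a)) a = B :=
    (B.hasFDerivAt.comp a ((hasFDerivAt_id a).sub_const a)).fderiv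
  set Φ : Cm (N + d) → Cm (N + d) := fun z => glue (y z) (B (z - a)) with hΦ
  have an : ∀ z, AnalyticAt ℂ y z → AnalyticAt ℂ Φ z := fun z hz =>
    (contDiff_glue (r := ω) hz.contDiffAt ((B.analyticAt _).fun_comp
      (analyticAt_id.fun_sub analyticAt_const)).contDiffAt).analyticAt
  have hM : (jc Φ a).submatrix finSumFinEquiv id = Matrix.fromRows (jc y a) Hᴴ := by
    ext (p | i) j
    · simp only [jc, hΦ, Matrix.submatrix_apply, finSumFinEquiv_apply_left, Matrix.of_apply,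
        glue_castAdd, Matrix.fromRows_apply_inl, id]
    · have := P272.K.QN.jm_apply hB.differentiableAt i j
      rw [hB'] at this
      simp only [jc, hΦ, Matrix.submatrix_apply, finSumFinEquiv_apply_right, Matrix.of_apply,
        glue_natAdd, Matrix.fromRows_apply_inr, id]
      refine this.trans ?_
      simp [B]
  have hM' : ∀ v, jc Φ a *ᵥ v = glue (jc y a *ᵥ v) (Hᴴ *ᵥ v) := fun v => funext fun i => by
    refine Fin.addCases (fun i => ?_) (fun i => ?_) i
    · rw [glue_castAdd]; exact congrArg (· ⬝ᵥ v) (congrFun hM (.inl i))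
    · rw [glue_natAdd]; exact congrArg (· ⬝ᵥ v) (congrFun hM (.inr i))
  have h4 : Surjective (jc Φ a).mulVec := fun u => by
    obtain ⟨v, hv⟩ := h0 (fstP u)
    refine ⟨v + H *ᵥ (sndP u - Hᴴ *ᵥ v), ?_⟩
    rw [hM', Matrix.mulVec_add, Matrix.mulVec_add, Matrix.mulVec_mulVec, Matrix.mulVec_mulVec, h1,
      h2, Matrix.zero_mulVec, Matrix.one_mulVec, add_zero, hv, add_sub_cancel, glue_fst_snd]
  have h5 : ∀ v, fderiv ℂ Φ a v = jc Φ a *ᵥ v := fun v =>
    funext fun p => P272.K.QN.jm_mulVec (an a hy).differentiableAt v p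
  have h6 : Surjective (fderiv ℂ Φ a).toLinearMap := fun w => (h4 w).imp fun u hu => (h5 u).trans hu
  let L : Cm (N + d) ≃L[ℂ] Cm (N + d) := (LinearEquiv.ofBijective (fderiv ℂ Φ a).toLinearMap
    ⟨LinearMap.injective_iff_surjective.2 h6, h6⟩).toContinuousLinearEquiv
  have hL : HasStrictFDerivAt Φ (L : Cm (N + d) →L[ℂ] Cm (N + d)) a := (an a hy).hasStrictFDerivAt
  have h7 : ∀ s, L.symm (glue 0 s) = H *ᵥ s := fun s => L.symm_apply_eq.2 (by
    refine Eq.symm ((h5 _).trans ?_)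
    rw [hM', Matrix.mulVec_mulVec, Matrix.mulVec_mulVec, h1, h2, Matrix.zero_mulVec,
      Matrix.one_mulVec])
  have h8 : ‖(jc Φ a).det‖ ^ 2 = gH y a := det_rows h1 h2 hM
  have h9 : 0 < ‖(jc Φ a).det‖ ^ 2 := pow_pos (norm_pos_iff.2
    ((Matrix.isUnit_iff_isUnit_det _).1 (Matrix.mulVec_surjective_iff_isUnit.1 h4)).ne_zero) 2
  have c1 : ContinuousAt (jc Φ) a :=
    continuousAt_pi.2 fun _ => continuousAt_pi.2 fun _ => (jc_an (an a hy) _ _).continuousAt
  have c2 : ContinuousAt (jc y) a :=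
    continuousAt_pi.2 fun _ => continuousAt_pi.2 fun _ => (jc_an hy _ _).continuousAt
  have c3 : ∀ᶠ z in 𝓝 a, ‖(jc Φ z).det‖ ^ 2 < 2 * gH y z := by
    refine ContinuousAt.eventually_lt ((continuous_id.matrix_det.continuousAt.comp c1).norm.pow 2)
      (continuousAt_const.mul ?_) (by rw [← h8]; linarith)
    exact (Complex.continuous_re.comp ((continuous_id.matrix_map continuous_star).matrix_mul
      continuous_id.matrix_transpose).matrix_det).continuousAt.comp c2
  obtain ⟨r, hr, k1⟩ := Metric.eventually_nhds_iff_ball.1 (hy.eventually_analyticAt.and c3)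
  obtain ⟨r', hr', k2⟩ := Metric.eventually_nhds_iff_ball.1 (hL.eventually_right_inverse.and
    (hL.to_localInverse.hasFDerivAt.isLittleO.def one_pos))
  filter_upwards [Ioo_mem_nhdsGT (lt_min hr hr')] with ε ⟨hε, hε'⟩
  set e : ℝ := ε / (d + 2) with he
  have he0 : 0 < e := by positivity
  have he1 : (d + 2) * e = ε := mul_div_cancel₀ _ (by positivity)
  set C := ‖(L.symm : Cm (N + d) →L[ℂ] Cm (N + d))‖
  have hC : 0 ≤ C := norm_nonneg _
  filter_upwards [Ioo_mem_nhdsGT (show 0 < e / (C + 1) by positivity)] with δ ⟨hδ, hδ'⟩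
  rw [lt_div_iff₀ (by positivity)] at hδ'
  have hd : (0 : ℝ) ≤ d * e := by positivity
  have hb : ∀ z ∈ ball a ε, AnalyticAt ℂ y z ∧ ‖(jc Φ z).det‖ ^ 2 < 2 * gH y z := fun z hz =>
    k1 z (ball_subset_ball (hε'.le.trans (min_le_left _ _)) hz)
  set S := ball a ε ∩ y ⁻¹' closedBall (y a) δ
  have mS : MeasurableSet S := by
    have : S = ball a ε \ (ball a ε ∩ y ⁻¹' (closedBall (y a) δ)ᶜ) := by
      rw [sdiff_self_inter, Set.sdiff_eq, preimage_compl, compl_compl]
    rw [this]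
    exact measurableSet_ball.diff (ContinuousOn.isOpen_inter_preimage (fun z hz =>
      (hb z hz).1.continuousAt.continuousWithinAt) isOpen_ball
      isClosed_closedBall.isOpen_compl).measurableSet
  have sub : {u : Cm (N + d) | ‖fstP u - y a‖ ≤ δ ∧ ‖sndP u‖ ≤ e} ⊆ Φ '' S := fun u ⟨u1, u2⟩ => by
    have e1 : u - Φ a = glue (fstP u - y a) (sndP u) := funext fun i => by
      refine Fin.addCases (fun i => ?_) (fun i => ?_) i <;> simp [hΦ, fstP, sndP]
    have e2 : glue (fstP u - y a) (sndP u) = glue (fstP u - y a) 0 + glue 0 (sndP u) :=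
      funext fun i => by refine Fin.addCases (fun i => ?_) (fun i => ?_) i <;> simp
    have e3 : ‖u - Φ a‖ ≤ e := e1 ▸ norm_glue he0.le (u1.trans (by nlinarith)) u2
    obtain ⟨e4, e5⟩ := k2 u (mem_ball_iff_norm.2 (e3.trans_lt
      (lt_of_lt_of_le (by linarith) (hε'.le.trans (min_le_right _ _)))))
    have e6 : ‖L.symm (glue (fstP u - y a) 0)‖ ≤ C * δ :=
      ((L.symm : Cm (N + d) →L[ℂ] Cm (N + d)).le_opNorm _).trans
        (mul_le_mul_of_nonneg_left (norm_glue hδ.le u1 (norm_zero.trans_le hδ.le)) hC)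
    have e7 : ‖H *ᵥ sndP u‖ ≤ d * e := (pi_norm_le_iff_of_nonneg hd).2 fun j => by
      have : ‖∑ i, H j i * sndP u i‖ ≤ ∑ _i : Fin d, e := norm_sum_le_of_le _ fun i _ => by
        rw [norm_mul]
        exact (mul_le_of_le_one_left (norm_nonneg _) (h3 j i)).trans ((norm_le_pi_norm _ i).trans u2)
      rwa [Finset.sum_const, Finset.card_univ, Fintype.card_fin, nsmul_eq_mul] at this
    have e8 : (L.symm : Cm (N + d) →L[ℂ] Cm (N + d)) (u - Φ a) =
        L.symm (glue (fstP u - y a) 0) + H *ᵥ sndP u := by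
      rw [e1, e2, map_add, ← h7]; rfl
    rw [hL.localInverse_apply_image, e8, one_mul] at e5
    refine ⟨_, ⟨mem_ball_iff_norm.2 ?_, mem_closedBall_iff_norm.2 ?_⟩, e4⟩
    · have := norm_le_norm_add_norm_sub' (hL.localInverse Φ L a u - a)
        (L.symm (glue (fstP u - y a) 0) + H *ᵥ sndP u)
      have := norm_add_le (L.symm (glue (fstP u - y a) 0)) (H *ᵥ sndP u)
      linarith
    · rwa [← (fstP_glue _ _).symm.trans (congrArg fstP e4)] at u1
  have k3 := addHaar_image_le_lintegral_abs_det_fderiv volume mS (f := Φ) (f' := fderiv ℝ Φ)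
    fun z hz => ((an z (hb z hz.1).1).differentiableAt.restrictScalars ℝ).hasFDerivAt.hasFDerivWithinAt
  have k4 : ∫⁻ z in S, ENNReal.ofReal |(fderiv ℝ Φ z).det| ≤
      ∫⁻ z in S, ENNReal.ofReal 2 * ENNReal.ofReal (gH y z) := setLIntegral_mono' mS fun z hz => by
    rw [P272.K.INT.det_fderiv_real (an z (hb z hz.1).1).differentiableAt, abs_sq,
      ← ENNReal.ofReal_mul zero_le_two]
    exact ENNReal.ofReal_le_ofReal (hb z hz.1).2.le
  rw [lintegral_const_mul' _ _ ENNReal.ofReal_ne_top] at k4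
  have k5 := (((vol (y a) hδ.le he0.le).trans (measure_mono sub)).trans k3).trans k4
  refine (ENNReal.mul_le_mul_iff_right (a := ENNReal.ofReal 2) (by simp)
    ENNReal.ofReal_ne_top).1 (le_of_eq_of_le ?_ k5)
  rw [← mul_assoc, ← ENNReal.ofReal_mul zero_le_two, he, div_pow, div_pow]
  congr 2
  ring

end Vale.Agent.P281Z.Jb
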