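import Vale.Agent.P281Z.Jb.ADefs
import Mathlib.Analysis.SpecialFunctions.SmoothTransition

/-!
# P281Z, block JB: a cut off logarithm
-/

open scoped Manifold ContDiff Topology ComplexOrder Matrix
open Filter Set Metric
open Vale.Agent.P272.K
open Vale.Agent.P277Z.Pos (nsq)
open Vale.Agent.P281Z.Ky

set_option linter.all false

noncomputable section

namespace Vale.Agent.P281Z.Jb

namespace CutA

variable {D : ℕ}

theorem nsq_nonneg (w : Cm D) : 0 ≤ nsq w := Finset.sum_nonneg fun _ _ => sq_nonneg _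

/-- the matrix `α + β w̄ wᵀ` -/
def mt (α β : ℝ) (w : Cm D) : Matrix (Fin D) (Fin D) ℂ :=
  (α : ℂ) • 1 + (β : ℂ) • Matrix.vecMulVec (star w) w

theorem mt_psd {α β : ℝ} {w : Cm D} (h : 0 ≤ α) (h' : 0 ≤ α + β * nsq w) :
    (mt α β w).PosSemidef := by
  have hv : (Matrix.vecMulVec (star w) w).PosSemidef := Matrix.posSemidef_vecMulVec_star_self w
  refine Matrix.PosSemidef.of_dotProduct_mulVec_nonneg ?_ fun x => ?_
  · exact (Matrix.isHermitian_one.smul (by simp [IsSelfAdjoint])).add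
      (hv.isHermitian.smul (by simp [IsSelfAdjoint]))
  have e1 : star x ⬝ᵥ x = ((nsq x : ℝ) : ℂ) := by
    simp [nsq, dotProduct, Complex.conj_mul']
  have e2 : star x ⬝ᵥ (Matrix.vecMulVec (star w) w *ᵥ x) = ((‖w ⬝ᵥ x‖ ^ 2 : ℝ) : ℂ) := by
    have e : star x ⬝ᵥ star w = (starRingEnd ℂ) (w ⬝ᵥ x) := by
      simp [dotProduct, mul_comm]
    rw [Matrix.vecMulVec_mulVec, op_smul_eq_smul, dotProduct_smul, smul_eq_mul, e,
      Complex.mul_conj']
    simp
  have cs : ‖w ⬝ᵥ x‖ ^ 2 ≤ nsq w * nsq x := by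
    refine le_trans ?_ (Finset.sum_mul_sq_le_sq_mul_sq _ (fun l => ‖w l‖) fun l => ‖x l‖)
    refine pow_le_pow_left₀ (norm_nonneg _) ((norm_sum_le _ _).trans (le_of_eq ?_)) 2
    simp
  rw [mt, Matrix.add_mulVec, Matrix.smul_mulVec, Matrix.smul_mulVec, Matrix.one_mulVec,
    dotProduct_add, dotProduct_smul, dotProduct_smul, e1, e2, smul_eq_mul, smul_eq_mul,
    ← Complex.ofReal_mul, ← Complex.ofReal_mul, ← Complex.ofReal_add, Complex.zero_le_real]
  have hx := nsq_nonneg x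
  rcases le_total 0 β with hb | hb
  · positivity
  · nlinarith [mul_nonneg h' hx, mul_le_mul_of_nonpos_left cs hb]

/-- the regularised square of the distance -/
def uu (a : Cm D) (ε : ℝ) (z : Cm D) : ℝ := nsq (z - a) + ε ^ 2

theorem uu_sm (a : Cm D) (ε : ℝ) : ContDiff ℝ ∞ (uu a ε) :=
  (ContDiff.sum fun l _ => (((contDiff_apply ℝ ℂ l).sub contDiff_const).norm_sq ℂ)).add
    contDiff_const

theorem dz_co (l k : Fin D) (a z : Cm D) :
    dz k (fun w => w l - a l) z = (1 : Matrix (Fin D) (Fin D) ℂ) l k := by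
  rw [C2.dz_sub k (differentiableAt_apply l z) (differentiableAt_const _), C2.dz_const, sub_zero]
  exact congrFun (congrFun (jc_id z) l) k

theorem dzb_uu (a : Cm D) (ε : ℝ) (k : Fin D) :
    dzb k (fun y : Cm D => ((uu a ε y : ℝ) : ℂ)) = fun y => y k - a k := by
  funext y
  have d : ∀ l, DifferentiableAt ℝ (fun w : Cm D => w l - a l) y := fun l =>
    (differentiableAt_apply l y).sub_const _
  have e : (fun y : Cm D => ((uu a ε y : ℝ) : ℂ)) = fun y =>
      ∑ l, (y l - a l) * (starRingEnd ℂ) (y l - a l) + ((ε ^ 2 : ℝ) : ℂ) := by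
    funext y
    simp only [uu, nsq, Complex.mul_conj, Complex.normSq_eq_norm_sq, Pi.sub_apply]
    push_cast
    rfl
  have e' : ∀ l, dzb k (fun w : Cm D => w l - a l) y = 0 := fun l =>
    dzb_of_holo ((differentiableAt_apply l y).sub_const _)
  have d' := fun l => (d l).fun_mul (C2.differentiableAt_conj (d l))
  rw [e, C2.dzb_add k (DifferentiableAt.fun_sum fun l _ => d' l) (differentiableAt_const _),
    C2.dzb_const, add_zero, C2.dzb_sum k _ fun l _ => d' l]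
  simp only [fun l => C2.dzb_mul k (d l) (C2.differentiableAt_conj (d l)),
    fun l => C2.dzb_conj k (d l), dz_co, e']
  simp [Matrix.one_apply]

theorem hess {ψ ψ₁ : ℝ → ℝ} {ψ₂ : ℝ} (a : Cm D) (ε : ℝ) (z : Cm D)
    (hψ : ∀ᶠ s in 𝓝 (uu a ε z), HasDerivAt ψ (ψ₁ s) s) (hψ₁ : HasDerivAt ψ₁ ψ₂ (uu a ε z))
    (κ : ℝ) : 1 + cHess (fun y => ψ (uu a ε y)) z - (κ : ℂ) • 1 =
      mt (1 + ψ₁ (uu a ε z) - κ) ψ₂ (z - a) := by
  have hu := two (uu_sm a ε).contDiffAt (x := z)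
  ext j k
  rw [Matrix.sub_apply, Matrix.add_apply, C2.cHess_comp hψ hψ₁ hu, C2.cHess_apply,
    C2.dz_real j (hu.differentiableAt (by norm_num)), dzb_uu, dzb_uu, dz_co]
  simp only [mt, Matrix.add_apply, Matrix.smul_apply, Matrix.vecMulVec_apply, Matrix.one_apply,
    Pi.star_apply, Pi.sub_apply, smul_eq_mul, Complex.star_def, eq_comm (a := k)]
  push_cast
  ring

theorem key {ρ : ℝ} (hρ : 0 < ρ) : ∃ (g g₁ g₂ : ℝ → ℝ) (C : ℝ), 0 < C ∧
    ContDiffOn ℝ ∞ g (Ioi 0) ∧ (∀ s, 0 < s → HasDerivAt g (g₁ s) s ∧ HasDerivAt g₁ (g₂ s) s) ∧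
    (∀ s, ρ ≤ s → g s = 0) ∧ (∀ s, 0 < s → s < ρ / 2 → g₁ s = s⁻¹ ∧ g₂ s = -(s ^ 2)⁻¹) ∧
    ∀ s, ρ / 2 ≤ s → |g₁ s| ≤ C ∧ |g₂ s| * s ≤ C := by
  set g : ℝ → ℝ := fun t => Real.smoothTransition (2 - 2 * t / ρ) * Real.log t with hg
  have h0 : ContDiffOn ℝ ∞ g (Ioi 0) :=
    (Real.smoothTransition.contDiff.comp (by fun_prop)).contDiffOn.mul
      (Real.contDiffOn_log.mono fun s hs => ne_of_gt hs)
  obtain ⟨d0, h1⟩ := (contDiffOn_infty_iff_deriv_of_isOpen isOpen_Ioi).1 h0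
  obtain ⟨d1, h2⟩ := (contDiffOn_infty_iff_deriv_of_isOpen isOpen_Ioi).1 h1
  have z0 : ∀ s, ρ ≤ s → g s = 0 := fun s hs => by
    have : 2 - 2 * s / ρ ≤ 0 := by rw [sub_nonpos, le_div_iff₀ hρ]; linarith
    simp only [hg, Real.smoothTransition.zero_of_nonpos this, zero_mul]
  have sub : Icc (ρ / 2) ρ ⊆ Ioi 0 := fun s hs => lt_of_lt_of_le (half_pos hρ) hs.1
  obtain ⟨C₁, k1⟩ := isCompact_Icc.exists_bound_of_continuousOn (h1.continuousOn.mono sub)
  obtain ⟨C₂, k2⟩ := isCompact_Icc.exists_bound_of_continuousOn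
    ((h2.continuousOn.mul continuousOn_id).mono sub)
  refine ⟨g, deriv g, deriv (deriv g), |C₁| + |C₂| + 1, by positivity, h0, fun s hs =>
    ⟨(d0.differentiableAt (Ioi_mem_nhds hs)).hasDerivAt,
      (d1.differentiableAt (Ioi_mem_nhds hs)).hasDerivAt⟩, z0, fun s hs hs' => ?_, fun s hs => ?_⟩
  · have e : g =ᶠ[𝓝 s] Real.log := by
      filter_upwards [Iio_mem_nhds hs'] with t ht
      have : 1 ≤ 2 - 2 * t / ρ := by
        rw [le_sub_comm, div_le_iff₀ hρ]; linarith [mem_Iio.1 ht]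
      simp only [hg, Real.smoothTransition.one_of_one_le this, one_mul]
    refine ⟨by rw [e.deriv_eq, Real.deriv_log], ?_⟩
    rw [e.deriv.deriv_eq, Real.deriv_log', deriv_inv]
  · rcases le_or_gt s ρ with h | h
    · have a1 := k1 s ⟨hs, h⟩
      have a2 := k2 s ⟨hs, h⟩
      have hs0 : 0 < s := sub ⟨hs, h⟩
      simp only [Real.norm_eq_abs, Pi.mul_apply, id, abs_mul, abs_of_pos hs0] at a1 a2
      constructor <;> linarith [le_abs_self C₁, le_abs_self C₂, abs_nonneg C₁, abs_nonneg C₂]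
    · have e : g =ᶠ[𝓝 s] fun _ => 0 := by
        filter_upwards [Ioi_mem_nhds h] with t ht using z0 t (le_of_lt ht)
      rw [e.deriv.deriv_eq, e.deriv_eq]
      simp only [deriv_const', deriv_const, abs_zero, zero_mul]
      constructor <;> positivity

end CutA

open CutA

theorem cut : CUT := by
  intro D r hr
  obtain ⟨g, g₁, g₂, C, hC, hg, hd, hz, hl, hb⟩ := key (ρ := r ^ 2) (by positivity)
  set η₀ : ℝ := 1 / (2 * C) with hη
  have η0 : 0 < η₀ := by positivity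
  have ηC : η₀ * C = 1 / 2 := by rw [hη]; field_simp
  refine ⟨η₀ / (D + 1) ^ 2, by positivity, ?_⟩
  have ev : ∀ᶠ ε in 𝓝 (0 : ℝ), ((D : ℝ) + 1) * ε ^ 2 < r ^ 2 / 2 :=
    (by fun_prop : Continuous fun ε : ℝ => ((D : ℝ) + 1) * ε ^ 2).continuousAt.eventually_lt
      continuousAt_const (by simpa using by positivity)
  filter_upwards [self_mem_nhdsWithin, ev.filter_mono nhdsWithin_le_nhds] with ε hε hε' a
  have hε0 : 0 < ε := hε
  have pos : ∀ z, 0 < uu a ε z := fun z => add_pos_of_nonneg_of_pos (nsq_nonneg _) (by positivity)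
  have H : ∀ z (κ : ℝ), 1 + cHess (fun y => η₀ * g (uu a ε y)) z - (κ : ℂ) • 1 =
      mt (1 + η₀ * g₁ (uu a ε z) - κ) (η₀ * g₂ (uu a ε z)) (z - a) := fun z κ =>
    hess (ψ := fun s => η₀ * g s) (ψ₁ := fun s => η₀ * g₁ s) a ε z
      ((eventually_gt_nhds (pos z)).mono fun s hs => (hd s hs).1.const_mul η₀)
      ((hd _ (pos z)).2.const_mul η₀) κ
  have L : ∀ z (κ : ℝ), uu a ε z < r ^ 2 / 2 → κ ≤ η₀ * ε ^ 2 / uu a ε z ^ 2 →
      (1 + cHess (fun y => η₀ * g (uu a ε y)) z - (κ : ℂ) • 1).PosSemidef := fun z κ h1 h2 => by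
    have hp := pos z
    have e : η₀ * (uu a ε z)⁻¹ + η₀ * -(uu a ε z ^ 2)⁻¹ * nsq (z - a) =
        η₀ * ε ^ 2 / uu a ε z ^ 2 := by
      have : nsq (z - a) = uu a ε z - ε ^ 2 := by simp [uu]
      rw [this]; field_simp; ring
    have h3 : 0 ≤ η₀ * (uu a ε z ^ 2)⁻¹ * nsq (z - a) :=
      mul_nonneg (by positivity) (nsq_nonneg _)
    rw [H, (hl _ hp h1).1, (hl _ hp h1).2]
    exact mt_psd (by linarith) (by linarith)
  refine ⟨fun y => η₀ * g (uu a ε y), contDiff_const.mul (hg.comp_contDiff (uu_sm a ε) pos),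
    closure_minimal (fun z hz' => ?_) isClosed_closedBall, fun z => ?_, fun z hz' => ?_⟩
  · have h1 : uu a ε z < r ^ 2 := not_le.1 fun h => hz' (by simp only [hz _ h, mul_zero])
    rw [mem_closedBall, dist_eq_norm, pi_norm_le_iff_of_nonneg hr.le]
    intro l
    have h2 : ‖(z - a) l‖ ^ 2 ≤ nsq (z - a) :=
      Finset.single_le_sum (f := fun l => ‖(z - a) l‖ ^ 2) (fun _ _ => sq_nonneg _)
        (Finset.mem_univ l)
    exact (pow_le_pow_iff_left₀ (norm_nonneg _) hr.le two_ne_zero).1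
      (by unfold uu at h1; nlinarith [sq_nonneg ε])
  · suffices h : (1 + cHess (fun y => η₀ * g (uu a ε y)) z - ((0 : ℝ) : ℂ) • 1).PosSemidef by
      simpa using h
    rcases lt_or_ge (uu a ε z) (r ^ 2 / 2) with h | h
    · exact L z 0 h (by have := pos z; positivity)
    · obtain ⟨b1, b2⟩ := hb _ h
      have n0 := nsq_nonneg (z - a)
      have n1 : nsq (z - a) ≤ uu a ε z := le_add_of_nonneg_right (sq_nonneg _)
      have c1 : -C ≤ g₁ (uu a ε z) := (abs_le.1 b1).1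
      have c2 : -C ≤ g₂ (uu a ε z) * nsq (z - a) := by
        nlinarith [neg_abs_le (g₂ (uu a ε z)), abs_nonneg (g₂ (uu a ε z))]
      rw [H]
      exact mt_psd (by nlinarith) (by nlinarith)
  · have h1 : uu a ε z ≤ (D + 1) * ε ^ 2 := by
      have : nsq (z - a) ≤ ∑ _l : Fin D, ε ^ 2 := Finset.sum_le_sum fun l _ =>
        pow_le_pow_left₀ (norm_nonneg _) ((norm_le_pi_norm (z - a) l).trans
          (by rw [← dist_eq_norm]; exact (mem_ball.1 hz').le)) 2
      simp only [Finset.sum_const, Finset.card_univ, Fintype.card_fin, nsmul_eq_mul] at this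
      unfold uu; linarith
    refine L z _ (h1.trans_lt hε') ?_
    have hp := pos z
    rw [div_div, div_le_div_iff₀ (by positivity) (by positivity)]
    have := pow_le_pow_left₀ hp.le h1 2
    nlinarith

end Vale.Agent.P281Z.Jb
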