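import Vale.Agent.P281Z.Jb.ADefs
import Vale.Agent.P284Z.F0.Ball

/-!
# P281Z, block JB: removable singularities
-/

open scoped Topology
open MeasureTheory Filter Set Metric Real
open Vale.Agent.P284Z

noncomputable section

namespace Vale.Agent.P281Z.Jb

namespace Ex

theorem usc_mul {Y : Type} [TopologicalSpace Y] {P φ : Y → ℝ} {U : Set Y}
    (h : UpperSemicontinuousOn P U) (hφ : ContinuousOn φ U) (h0 : ∀ y ∈ U, 0 ≤ φ y) :
    UpperSemicontinuousOn (fun y => P y * φ y) U := fun z hz t ht => by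
  obtain ⟨s, s1, s2⟩ := (((continuous_mul_const (φ z)).tendsto (P z)).eventually
    (gt_mem_nhds ht)).exists_gt
  filter_upwards [h z hz s s1, ((hφ z hz).const_mul s).eventually (gt_mem_nhds s2),
    self_mem_nhdsWithin] with y a b c using (mul_le_mul_of_nonneg_right a.le (h0 y c)).trans_lt b

variable {W : Type} [NormedAddCommGroup W] [NormedSpace ℂ W] [FiniteDimensional ℂ W]
  {P Q φ : W → ℝ} {F : W → ℂ} {O : Set W}

theorem core (hO : IsOpen O) (hu : UpperSemicontinuousOn P O) (h0 : ∀ z ∈ O, 0 ≤ P z)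
    (hF : DifferentiableOn ℂ F O) (h1 : ∀ z ∈ O, ‖F z‖ ≤ 1)
    (hl : ∀ z ∈ O, F z ≠ 0 → ∃ N ∈ 𝓝 z, LPsh P N)
    (ha : ∀ z ∈ O, ∀ t < P z, ∃ᶠ y in 𝓝 z, F y ≠ 0 ∧ t < P y) : LPsh P O := by
  have hp : ∀ j : ℕ, (0 : ℝ) < 1 / (j + 1) := fun j => Nat.one_div_pos_of_nat
  refine lpsh_of_rat (g := fun j y => P y * ‖F y‖ ^ (1 / (j + 1) : ℝ)) hO (fun j => ?_)
    fun z hz t => ⟨fun ht => ?_, fun ht N hN => ?_⟩
  · refine lpsh_of_touch hO (usc_mul hu (hF.continuousOn.norm.rpow_const fun _ _ => .inr (hp j).le)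
      fun _ _ => by positivity) (fun y hy => mul_nonneg (h0 y hy) (by positivity)) fun y hy k => ?_
    obtain ⟨N, n1, n2⟩ := hl y hy fun e => by
      rw [e, norm_zero, zero_rpow (hp j).ne', mul_zero] at k
      exact lt_irrefl _ k
    exact ⟨N ∩ O, inter_mem n1 (hO.mem_nhds hy), _, (n2.mono inter_subset_left).mul
      (((lpsh_norm hO hF).rpow (hp j).le).mono inter_subset_right), fun _ _ => le_rfl, rfl⟩
  · filter_upwards [tendsto_snd.eventually (Z.usc_ev hO hu hz ht)] with q k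
    exact (mul_le_of_le_one_right (h0 _ k.1)
      (rpow_le_one (norm_nonneg _) (h1 _ k.1) (hp _).le)).trans_lt k.2
  · obtain ⟨y, ⟨a, b⟩, c⟩ := ((ha z hz t ht).and_eventually hN).exists
    have k := ((continuousAt_const_rpow (b := 0) (norm_ne_zero_iff.2 a)).tendsto.comp
      tendsto_one_div_add_atTop_nhds_zero_nat).const_mul (P y)
    rw [rpow_zero, mul_one] at k
    exact (k.eventually (lt_mem_nhds b)).mono fun j hj => ⟨y, c, hj⟩

theorem appr (hO : IsOpen O) (hc : IsPreconnected O) (hQ : LPsh Q O) (hφ : ContinuousOn φ O)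
    (h0 : ∀ y ∈ O, 0 ≤ φ y) (hF : DifferentiableOn ℂ F O) {x : W} (hx : x ∈ O) (h1 : F x ≠ 0) :
    ∀ z ∈ O, ∀ t < Q z * φ z, ∃ᶠ y in 𝓝 z, F y ≠ 0 ∧ t < Q y * φ y := fun z hz t ht k => by
  have : ProperSpace W := Z.proper
  borelize W
  obtain ⟨s, s1, s2⟩ := (((continuous_mul_const (φ z)).tendsto (Q z)).eventually
    (lt_mem_nhds ht)).exists_lt
  refine s1.not_ge (hQ.le_of_ae Measure.addHaar (hO.mem_nhds hz) ⟨_, (k.and
    (((hφ.continuousAt (hO.mem_nhds hz)).const_mul s).eventually (lt_mem_nhds s2))).and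
      (hO.mem_nhds hz), ?_⟩)
  filter_upwards [(lpsh_norm hO hF).ae_pos hO hc hx (norm_pos_iff.2 h1)] with y a b
  exact not_lt.1 fun c => b.1.1 ⟨norm_pos_iff.1 (a b.2),
    b.1.2.trans_le (mul_le_mul_of_nonneg_right c.le (h0 y b.2))⟩

end Ex

/-- **EXT** -/
theorem ext : EXT := fun N U A Q ρ hU hQ hρ hA hl => lpsh_of_loc fun z hz => by
  by_cases c : z ∈ A
  swap
  · exact hl z hz c
  obtain ⟨g, g1, g2, g3⟩ := hA z hz c
  have hM : 0 < ‖g z‖ + 1 := by positivity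
  have hM' : ((‖g z‖ + 1 : ℝ) : ℂ) ≠ 0 := Complex.ofReal_ne_zero.2 hM.ne'
  obtain ⟨r, hr, hb⟩ := Metric.eventually_nhds_iff_ball.1 ((g1.eventually_analyticAt.and g3).and
    ((g1.continuousAt.norm.eventually (gt_mem_nhds (lt_add_one _))).and (hU.mem_nhds hz)))
  have sub : ball z r ⊆ U := fun y hy => (hb y hy).2.2
  have hF : DifferentiableOn ℂ (fun y => g y / (‖g z‖ + 1 : ℝ)) (ball z r) := fun y hy =>
    (hb y hy).1.1.div_const.differentiableAt.differentiableWithinAt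
  have hφ : ContinuousOn (fun y => exp (ρ y)) (ball z r) :=
    continuous_exp.comp_continuousOn (hρ.mono sub)
  obtain ⟨x, x1, x2⟩ := (g2.and_eventually (ball_mem_nhds z hr)).exists
  refine ⟨ball z r, ball_mem_nhds z hr, Ex.core isOpen_ball
    (Ex.usc_mul (hQ.mono sub).usc hφ fun _ _ => (exp_pos _).le)
    (fun y hy => mul_nonneg (hQ.1 y (sub hy)) (exp_pos _).le) hF (fun y hy => ?_)
    (fun y hy k => hl y (sub hy) fun a => k (by rw [(hb y hy).1.2 a, zero_div]))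
    (Ex.appr isOpen_ball (convex_ball z r).isPreconnected (hQ.mono sub) hφ
      (fun _ _ => (exp_pos _).le) hF x2 (div_ne_zero x1 hM'))⟩
  rw [norm_div, Complex.norm_real, norm_of_nonneg hM.le]
  exact (div_le_one hM).2 (hb y hy).2.1.le

end Vale.Agent.P281Z.Jb
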