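import Vale.Agent.P281Z.Jb.ADefs
import Vale.Agent.P284.H451.D.Sard
import Mathlib.MeasureTheory.Covering.BesicovitchVectorSpace
import Mathlib.MeasureTheory.Covering.Differentiation

/-!
# P281Z, block JB: the lower bound for the volume of the fibres
-/

open scoped Manifold ContDiff Topology ComplexOrder ENNReal Matrix
open MeasureTheory Filter Set Metric
open Vale.Agent.P272.K (Cm cHess)
open Vale.Agent.P281Z.Ky

noncomputable section

namespace Vale.Agent.P281Z.Jb

namespace LelH

variable {D N : ℕ} {y : Cm D → Cm N}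

theorem gH_nn (y : Cm D → Cm N) (z : Cm D) : 0 ≤ gH y z := by
  have h := (Matrix.posSemidef_conjTranspose_mul_self (jc y z)ᵀ).det_nonneg
  exact (Complex.le_def.1 h).1

theorem gH_cont {K : Set (Cm D)} (h : AnalyticOnNhd ℂ y K) : ContinuousOn (gH y) K := by
  intro z hz
  have h1 : ContinuousAt (jc y) z := continuousAt_pi.2 fun a => continuousAt_pi.2 fun j =>
    (jc_an (h z hz) a j).continuousAt
  have h2 : Continuous fun A : Matrix (Fin N) (Fin D) ℂ => (A.map star * Aᵀ).det.re :=
    Complex.continuous_re.comp (((continuous_id.matrix_map continuous_star).matrix_mul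
      continuous_id.matrix_transpose).matrix_det)
  exact (h2.continuousAt.comp h1).continuousWithinAt

theorem step (hM : MON) {K L B : Set (Cm D)} {v : Cm D → ℝ} {κ : ℝ} (hK : IsCompact K)
    (hL : IsClosed L) (hKL : K ⊆ L) (hy : AnalyticOnNhd ℂ y L) (hB : MeasurableSet B)
    (hBK : B ⊆ K) (hv : ContDiff ℝ ∞ v) (hs : tsupport v ⊆ K) (hκ : 0 < κ)
    (h1 : ∀ z ∈ K, (1 + cHess v z).PosSemidef)
    (h2 : ∀ z ∈ B, (1 + cHess v z - (κ : ℂ) • 1).PosSemidef) (x : Cm N) {δ : ℝ} (hδ : 0 < δ) :
    ENNReal.ofReal (κ ^ D / κ ^ N) *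
      ∫⁻ z in B ∩ y ⁻¹' closedBall x δ, ENNReal.ofReal (gH y z) ≤
      ∫⁻ z in L ∩ y ⁻¹' closedBall x (2 * δ), ENNReal.ofReal (gH y z) := by
  let ψ : ∀ a, ContDiffBump (x a) := fun _ => ⟨δ, 2 * δ, hδ, by linarith⟩
  have h := hM D N y K B v κ (fun a => ψ a) hK (hy.mono hKL) hB hBK hv hs hκ h1 h2
    (fun a => (ψ a).contDiff) fun a t => (ψ a).nonneg
  set F : Cm D → ℝ := fun z => (∏ a, ψ a (y z a)) * gH y z with hF
  have cy := hy.continuousOn
  have cF : ContinuousOn F L := (continuousOn_finsetProd _ fun a _ =>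
    (ψ a).continuous.comp_continuousOn ((continuous_apply a).comp_continuousOn cy)).mul
      (gH_cont hy)
  have iK : IntegrableOn F K := (cF.mono hKL).integrableOn_compact hK
  have p0 : ∀ z, 0 ≤ ∏ a, ψ a (y z a) := fun z => Finset.prod_nonneg fun a _ => (ψ a).nonneg
  have F0 : ∀ z, 0 ≤ F z := fun z => mul_nonneg (p0 z) (gH_nn y z)
  have ms : ∀ s, MeasurableSet (L ∩ y ⁻¹' closedBall x s) := fun s =>
    (cy.preimage_isClosed_of_isClosed hL isClosed_closedBall).measurableSet
  have e1 : ∫⁻ z in B ∩ y ⁻¹' closedBall x δ, ENNReal.ofReal (gH y z) ≤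
      ENNReal.ofReal (∫ z in B, F z) := by
    rw [ofReal_integral_eq_lintegral_ofReal (iK.mono_set hBK) (.of_forall F0)]
    have m1 : MeasurableSet (B ∩ y ⁻¹' closedBall x δ) := by
      rw [show B ∩ y ⁻¹' closedBall x δ = B ∩ (L ∩ y ⁻¹' closedBall x δ) by
        rw [← inter_assoc, inter_eq_left.2 (hBK.trans hKL)]]
      exact hB.inter (ms δ)
    refine (setLIntegral_congr_fun m1 fun z hz => ?_).le.trans
      (lintegral_mono_set inter_subset_left)
    have k : ∀ a, ψ a (y z a) = 1 := fun a => (ψ a).one_of_mem_closedBall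
      ((dist_le_pi_dist (y z) x a).trans hz.2)
    simp only [hF, k, Finset.prod_const_one, one_mul]
  have e2 : ENNReal.ofReal (∫ z in K, F z) ≤
      ∫⁻ z in L ∩ y ⁻¹' closedBall x (2 * δ), ENNReal.ofReal (gH y z) := by
    rw [ofReal_integral_eq_lintegral_ofReal iK (.of_forall F0),
      ← lintegral_indicator hK.measurableSet, ← lintegral_indicator (ms _)]
    refine lintegral_mono fun z => ?_
    by_cases hz : z ∈ K
    · rw [indicator_of_mem hz]
      by_cases hz' : y z ∈ closedBall x (2 * δ)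
      · rw [indicator_of_mem (show z ∈ L ∩ y ⁻¹' closedBall x (2 * δ) from ⟨hKL hz, hz'⟩)]
        exact ENNReal.ofReal_le_ofReal (mul_le_of_le_one_left (gH_nn y z)
          (Finset.prod_le_one (fun a _ => (ψ a).nonneg) fun a _ => (ψ a).le_one))
      · rw [mem_closedBall, dist_pi_le_iff (by linarith), not_forall] at hz'
        obtain ⟨a, ha⟩ := hz'
        have k : ψ a (y z a) = 0 := (ψ a).zero_of_le_dist (not_le.1 ha).le
        have k' : F z = 0 := by
          simp only [hF]
          rw [Finset.prod_eq_zero (Finset.mem_univ a) k, zero_mul]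
        simp only [k', ENNReal.ofReal_zero, zero_le]
    · simp only [indicator_of_notMem hz, zero_le]
  refine le_trans ?_ e2
  refine (mul_le_mul_right e1 _).trans ?_
  rw [← ENNReal.ofReal_mul (by positivity)]
  refine ENNReal.ofReal_le_ofReal ?_
  rw [div_mul_eq_mul_div, div_le_iff₀ (by positivity), mul_comm _ (κ ^ N)]
  exact h

end LelH

open LelH

theorem lel_of (hC : CUT) (hM : MON) (hA : AREA) : LEL := by
  intro N d y a r hr hy
  obtain ⟨η, hη, h1⟩ := hC (N + d) r hr
  obtain ⟨c, hc, h2⟩ := hA N d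
  set L := closedBall a (2 * r) with hL
  have kL : IsCompact L := isCompact_closedBall _ _
  let μ := (volume.restrict L).withDensity fun z => ENNReal.ofReal (gH y z)
  have my : AEMeasurable y μ := (hy.continuousOn.aemeasurable kL.measurableSet).mono_ac
    (withDensity_absolutelyContinuous _ _)
  have ap : ∀ S, MeasurableSet S → μ.map y S =
      ∫⁻ z in L ∩ y ⁻¹' S, ENNReal.ofReal (gH y z) := fun S hS => by
    rw [Measure.map_apply_of_aemeasurable my hS, withDensity_apply',
      Measure.restrict_restrict' kL.measurableSet, inter_comm]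
  have : IsFiniteMeasure μ := isFiniteMeasure_withDensity
    ((gH_cont hy).integrableOn_compact kL).lintegral_lt_top.ne
  set m := Module.finrank ℝ (Cm N)
  refine ⟨η ^ d * c / 2 ^ m, by positivity, fun S hS hS' => ?_⟩
  rw [← ap S hS]
  have sd : {Z | ∀ z ∈ {x | AnalyticAt ℂ y x}, y z = Z → Function.Surjective (fderiv ℂ y z)} ∈
      ae (volume : Measure (Cm N)) :=
    P284.H451.D.sard_ae (isOpen_analyticAt ℂ y) (T := y) fun _ h => h
  have key := VitaliFamily.measure_le_of_frequently_le (Besicovitch.vitaliFamily volume)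
    (ρ := ENNReal.ofReal (η ^ d * c / 2 ^ m) • (volume : Measure (Cm N))) (μ.map y)
    Measure.smul_absolutelyContinuous
    (S ∩ {Z | ∀ z ∈ {x | AnalyticAt ℂ y x}, y z = Z → Function.Surjective (fderiv ℂ y z)}) ?_
  · rw [Measure.smul_apply, measure_inter_conull (mem_ae_iff.1 sd), smul_eq_mul] at key
    exact key.trans (measure_mono inter_subset_left)
  rintro _ ⟨hx, hx'⟩
  obtain ⟨z, hz, rfl⟩ := hS' hx
  have sub : closedBall z r ⊆ L :=
    closedBall_subset_closedBall' (by linarith [mem_closedBall.1 hz])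
  have az := hy z (sub (mem_closedBall_self hr.le))
  obtain ⟨ε, ⟨k1, k2⟩, k3, k4⟩ := ((h1.and (h2 y z az (hx' z az rfl))).and
    (Ioo_mem_nhdsGT hr)).exists
  obtain ⟨v, v1, v2, v3, v4⟩ := k1 z
  have t2 : Tendsto (fun δ : ℝ => 2 * δ) (𝓝[>] 0) (𝓝[>] 0) :=
    tendsto_nhdsWithin_iff.2 ⟨by
      simpa using ((continuous_const_mul (2 : ℝ)).tendsto 0).mono_left nhdsWithin_le_nhds,
      eventually_mem_nhdsWithin.mono fun δ (h : 0 < δ) => show 0 < 2 * δ by linarith⟩
  refine ((Besicovitch.tendsto_filterAt volume (y z)).comp t2).frequently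
    ((k2.and self_mem_nhdsWithin).mono fun δ k => ?_).frequently
  have hδ : 0 < δ := k.2
  have st := step hM (isCompact_closedBall z r) isClosed_closedBall sub hy measurableSet_ball
    (ball_subset_closedBall.trans (closedBall_subset_closedBall k4.le)) v1 v2
    (κ := η / ε ^ 2) (by positivity) (fun z _ => v3 z) v4 (y z) hδ
  show (ENNReal.ofReal _ • volume) (closedBall (y z) (2 * δ)) ≤ μ.map y (closedBall (y z) (2 * δ))
  rw [ap _ measurableSet_closedBall]
  refine le_trans ?_ ((mul_le_mul_right k.1 _).trans st)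
  rw [Measure.smul_apply, smul_eq_mul, Measure.addHaar_closedBall_mul _ _ zero_le_two hδ.le,
    Measure.addHaar_closedBall_center volume (y z), ← mul_assoc, ← mul_assoc,
    ← ENNReal.ofReal_mul (by positivity), ← ENNReal.ofReal_mul (by positivity)]
  refine le_of_eq ?_
  have e : η ^ d * c / 2 ^ m * 2 ^ m =
      (η / ε ^ 2) ^ (N + d) / (η / ε ^ 2) ^ N * (c * ε ^ (2 * d)) := by
    rw [pow_add, mul_div_cancel_left₀ _ (by positivity), div_pow, pow_mul]
    field_simp
  rw [e]

end Vale.Agent.P281Z.Jb
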