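import Vale.Agent.P281Z.Jb.ADefs
import Vale.Agent.P281Z.Ky.Mat
import Vale.Agent.P272.K.INT.Local
import Vale.Agent.P272.Sz.Det

/-!
# P281Z, block JB: the monotonicity formula
-/

open scoped ContDiff Topology ComplexOrder Matrix
open MeasureTheory Filter Set Metric Matrix
open Vale.Agent.P272.K
open Vale.Agent.P281Z.Ky

noncomputable section

namespace Vale.Agent.P281Z.Jb

namespace Mon

variable {D N : ℕ} {y : Cm D → Cm N} {ψ : Fin N → ℂ → ℝ} {z : Cm D}

/-- the diagonal weight -/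
def R (y : Cm D → Cm N) (ψ : Fin N → ℂ → ℝ) (z : Cm D) : Matrix (Fin N) (Fin N) ℂ :=
  diagonal fun a => (ψ a (y z a) : ℂ)

/-- the pull back of the weighted form -/
def S (y : Cm D → Cm N) (ψ : Fin N → ℂ → ℝ) (z : Cm D) : Matrix (Fin D) (Fin D) ℂ :=
  (jc y z)ᵀ * (R y ψ z * (jc y z).map star)

/-- the small matrix -/
def M (y : Cm D → Cm N) (ψ : Fin N → ℂ → ℝ) (z : Cm D) : Matrix (Fin N) (Fin N) ℂ :=
  R y ψ z * (jc y z).map star * (jc y z)ᵀ

theorem S_apply (z : Cm D) (k l : Fin D) :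
    S y ψ z k l = ∑ a, jc y z a k * ((ψ a (y z a) : ℂ) * star (jc y z a l)) := by
  simp only [S, R, mul_apply (M := (jc y z)ᵀ), transpose_apply, diagonal_mul, map_apply]

theorem S_psd (h : ∀ a t, 0 ≤ ψ a t) (z : Cm D) : (S y ψ z).PosSemidef := by
  have h1 : (R y ψ z).PosSemidef :=
    PosSemidef.diagonal fun a => Complex.zero_le_real.2 (h a _)
  have h2 := h1.conjTranspose_mul_mul_same ((jc y z).map star)
  have h3 : ((jc y z).map star)ᴴ = (jc y z)ᵀ := by
    ext i j
    simp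
  rwa [h3, Matrix.mul_assoc] at h2

theorem J_sm (hy : AnalyticAt ℂ y z) (a : Fin N) (j : Fin D) :
    ContDiffAt ℝ ∞ (fun z => jc y z a j) z :=
  ((jc_an hy a j).restrictScalars (𝕜 := ℝ)).contDiffAt

theorem B_sm (hy : AnalyticAt ℂ y z) (a : Fin N) (j : Fin D) :
    ContDiffAt ℝ ∞ (fun z => star (jc y z a j)) z :=
  Complex.conjCLE.contDiff.contDiffAt.comp _ (J_sm hy a j)

theorem B_dz (hy : AnalyticAt ℂ y z) (a : Fin N) (j r : Fin D) :
    dz r (fun z => star (jc y z a j)) z = 0 := by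
  have := INT.dz_conj (i := r) (F := fun z => jc y z a j) (z := z)
  rw [INT.dzb_of_holo (jc_an hy a j).differentiableAt, map_zero] at this
  exact this

theorem P_sm (hy : AnalyticAt ℂ y z) (hψ : ∀ a, ContDiff ℝ ∞ (ψ a)) (a : Fin N) :
    ContDiffAt ℝ ∞ (fun z => (ψ a (y z a) : ℂ)) z :=
  INT.ofReal_contDiffAt ((hψ a).contDiffAt.comp z (contDiffAt_pi.1 (an_sm hy) a))

theorem P_dz (hy : AnalyticAt ℂ y z) (hψ : ∀ a, ContDiff ℝ ∞ (ψ a)) (a : Fin N) :
    ∃ c : ℂ, ∀ i, dz i (fun z => (ψ a (y z a) : ℂ)) z = c * jc y z a i := by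
  have h1 : DifferentiableAt ℝ (fun w : Cm 1 => (ψ a (w 0) : ℂ)) fun _ => y z a :=
    (INT.ofReal_contDiffAt ((hψ a).contDiffAt.comp _
      (contDiff_apply ℝ ℂ (0 : Fin 1)).contDiffAt)).differentiableAt (by simp)
  have h2 : DifferentiableAt ℂ (fun z => (fun _ => y z a : Cm 1)) z :=
    differentiableAt_pi.2 fun _ => differentiableAt_pi.1 hy.differentiableAt a
  refine ⟨dz 0 (fun w : Cm 1 => (ψ a (w 0) : ℂ)) fun _ => y z a, fun i => ?_⟩
  have h := QN.dz_comp_F (i := i) (F := fun z => (fun _ => y z a : Cm 1))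
    (f := fun w : Cm 1 => (ψ a (w 0) : ℂ)) (z := z) h1 h2
  rw [Fin.sum_univ_one] at h
  exact h

theorem S_sm (hy : AnalyticAt ℂ y z) (hψ : ∀ a, ContDiff ℝ ∞ (ψ a)) (k l : Fin D) :
    ContDiffAt ℝ ∞ (fun z => S y ψ z k l) z := by
  simp only [S_apply]
  exact ContDiffAt.sum fun a _ => (J_sm hy a k).mul ((P_sm hy hψ a).mul (B_sm hy a l))

theorem S_closed (hy : AnalyticAt ℂ y z) (hψ : ∀ a, ContDiff ℝ ∞ (ψ a)) (i k l : Fin D) :
    dz i (fun z => S y ψ z k l) z = dz k (fun z => S y ψ z i l) z := by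
  have d1 := fun a j => (J_sm hy a j).differentiableAt (by simp)
  have d2 := fun a j => (B_sm hy a j).differentiableAt (by simp)
  have d3 := fun a => (P_sm hy hψ a).differentiableAt (by simp)
  simp only [S_apply]
  rw [INT.dz_sum _ fun a _ => (d1 a k).fun_mul ((d3 a).fun_mul (d2 a l)),
    INT.dz_sum _ fun a _ => (d1 a i).fun_mul ((d3 a).fun_mul (d2 a l))]
  refine Finset.sum_congr rfl fun a _ => ?_
  obtain ⟨c, hc⟩ := P_dz hy hψ a
  have h1 : dz i (fun z => jc y z a k) z = dz k (fun z => jc y z a i) z :=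
    INT.dz_dz_comm (F := fun w => y w a)
      ((contDiffAt_pi.1 (an_sm hy) a).of_le (by norm_cast))
  rw [INT.dz_mul (d1 a k) ((d3 a).fun_mul (d2 a l)), INT.dz_mul (d1 a i) ((d3 a).fun_mul (d2 a l)),
    INT.dz_mul (d3 a) (d2 a l), INT.dz_mul (d3 a) (d2 a l), B_dz hy, B_dz hy, hc, hc, h1]
  ring

theorem M_cont (hy : AnalyticAt ℂ y z) (hψ : ∀ a, ContDiff ℝ ∞ (ψ a)) :
    ContinuousAt (M y ψ) z := by
  refine continuousAt_pi.2 fun a => continuousAt_pi.2 fun b => ?_
  have : (fun z => M y ψ z a b) =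
      fun z => ∑ j, (ψ a (y z a) : ℂ) * star (jc y z a j) * jc y z b j := by
    funext z
    simp only [M, R, mul_apply (N := (jc y z)ᵀ), transpose_apply, diagonal_mul, map_apply]
  rw [this]
  exact (ContDiffAt.sum fun j _ =>
    ((P_sm hy hψ a).mul (B_sm hy a j)).mul (J_sm hy b j)).continuousAt

theorem M_det (z : Cm D) : (M y ψ z).det.re = (∏ a, ψ a (y z a)) * gH y z := by
  rw [M, Matrix.mul_assoc, det_mul, R, det_diagonal, ← Complex.ofReal_prod, Complex.re_ofReal_mul,
    gH]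

theorem sylv_re (t : ℝ) (z : Cm D) : t ^ N * ((t : ℂ) • 1 + S y ψ z).det.re =
    t ^ D * ((t : ℂ) • 1 + M y ψ z).det.re := by
  have h := congrArg Complex.re (Mt.sylv (jc y z)ᵀ (R y ψ z * (jc y z).map star) (t : ℂ))
  rwa [← Complex.ofReal_pow, ← Complex.ofReal_pow, Complex.re_ofReal_mul,
    Complex.re_ofReal_mul] at h

/-- continuity of the integrals of the characteristic polynomial -/
theorem lim {A : Cm D → Matrix (Fin N) (Fin N) ℂ} {K B : Set (Cm D)} (hK : IsCompact K)
    (hA : ContinuousOn A K) (hB : MeasurableSet B) (hBK : B ⊆ K) :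
    ContinuousAt (fun t : ℝ => ∫ z in B, ((t : ℂ) • 1 + A z).det.re) 0 := by
  have hc : ContinuousOn (fun p : ℝ × Cm D => ((p.1 : ℂ) • 1 + A p.2).det.re) (univ ×ˢ K) :=
    Complex.continuous_re.comp_continuousOn (continuous_id.matrix_det.comp_continuousOn
      (((Complex.continuous_ofReal.comp continuous_fst).smul continuous_const).continuousOn.add
        (hA.comp continuousOn_snd fun p hp => hp.2)))
  obtain ⟨C, hC⟩ := ((isCompact_Icc (a := (-1 : ℝ)) (b := 1)).prod hK).exists_bound_of_continuousOn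
    (hc.mono (prod_mono (subset_univ _) subset_rfl))
  have hfin : IsFiniteMeasure (volume.restrict B) :=
    isFiniteMeasure_restrict.2 ((measure_mono hBK).trans_lt hK.measure_lt_top).ne
  refine continuousAt_of_dominated (bound := fun _ => C) (Eventually.of_forall fun t => ?_) ?_
    (integrable_const C) ((ae_restrict_iff' hB).2 (Eventually.of_forall fun z hz => ?_))
  · exact ((hc.comp (Continuous.prodMk_right t).continuousOn
      fun z hz => ⟨mem_univ _, hz⟩).mono hBK).aestronglyMeasurable hB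
  · filter_upwards [Icc_mem_nhds (show (-1 : ℝ) < 0 by norm_num) (show (0 : ℝ) < 1 by norm_num)]
      with t ht
    exact (ae_restrict_iff' hB).2 (Eventually.of_forall fun z hz => hC (t, z) ⟨ht, hBK hz⟩)
  · exact (Complex.continuous_re.comp (continuous_id.matrix_det.comp
      ((Complex.continuous_ofReal.smul continuous_const).add continuous_const))).continuousAt

/-- the theorem of Stokes and the monotonicity of the determinant -/
theorem step {K B : Set (Cm D)} {v : Cm D → ℝ} {κ t : ℝ} (hK : IsCompact K)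
    (hy : AnalyticOnNhd ℂ y K) (hB : MeasurableSet B) (hBK : B ⊆ K) (hv : ContDiff ℝ ∞ v)
    (hs : tsupport v ⊆ K) (hκ : 0 < κ) (h1 : ∀ z ∈ K, (1 + cHess v z).PosSemidef)
    (h2 : ∀ z ∈ B, (1 + cHess v z - (κ : ℂ) • 1).PosSemidef) (hψ : ∀ a, ContDiff ℝ ∞ (ψ a))
    (h0 : ∀ a t, 0 ≤ ψ a t) (ht : 0 < t) :
    ∫ z in B, (((t * κ : ℝ) : ℂ) • 1 + S y ψ z).det.re ≤
      ∫ z in K, ((t : ℂ) • 1 + S y ψ z).det.re := by
  have hU : IsOpen {z | AnalyticAt ℂ y z} := isOpen_analyticAt ℂ y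
  have hu : ContDiff ℝ ∞ fun z => t * v z := contDiff_const.mul hv
  have hs' : tsupport (fun z => t * v z) ⊆ K :=
    (tsupport_mul_subset_right (f := fun _ => t)).trans hs
  have hb : ∀ (s : ℂ), ∀ z ∈ {z | AnalyticAt ℂ y z}, ∀ i j,
      ContDiffAt ℝ ∞ (fun z => (s • 1 + S y ψ z) i j) z := fun s z hz i j =>
    contDiffAt_const.add (S_sm hz hψ i j)
  have key := INT.local_stokes (b := fun z => (t : ℂ) • 1 + S y ψ z) hU (hb t)
    (fun z hz i k l => by
      have d := fun k l => (S_sm hz hψ k l).differentiableAt (by simp)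
      simp only [Matrix.add_apply]
      rw [INT.dz_add (differentiableAt_const _) (d k l),
        INT.dz_add (differentiableAt_const _) (d i l), INT.dz_const, INT.dz_const,
        S_closed hz hψ]) hu (hK.of_isClosed_subset (isClosed_tsupport _) hs')
    (fun z hz => hy z (hs' hz))
  rw [setIntegral_eq_of_subset_of_forall_sdiff_eq_zero hU.measurableSet (s := K) hy
    fun z hz => by
      rw [INT.cHess_zero_of_notMem fun h => hz.2 (hs' h), add_zero, sub_self]] at key
  have c0 : ∀ s : ℂ, ContinuousOn (fun z => (s • 1 + S y ψ z).det.re) K := fun s z hz =>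
    (Complex.continuous_re.continuousAt.comp
      (INT.contDiffAt_det (k := ∞) (hb s z (hy z hz))).continuousAt).continuousWithinAt
  have c1 : ContinuousOn
      (fun z => ((t : ℂ) • 1 + S y ψ z + cHess (fun z => t * v z) z).det.re) K := fun z hz =>
    (Complex.continuous_re.continuousAt.comp (INT.contDiffAt_det (k := ∞) fun i j =>
      (hb t z (hy z hz) i j).add
        (INT.smooth_cHess hu.contDiffAt i j)).continuousAt).continuousWithinAt
  rw [integral_sub (c1.integrableOn_compact hK) ((c0 t).integrableOn_compact hK),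
    sub_eq_zero] at key
  have e1 : ∀ z, (t : ℂ) • 1 + S y ψ z + cHess (fun z => t * v z) z =
      (t : ℂ) • (1 + cHess v z) + S y ψ z := fun z => by
    rw [C2.cHess_const_mul t (two hv.contDiffAt), smul_add, add_right_comm]
  have t0 : (0 : ℂ) ≤ t := Complex.zero_le_real.2 ht.le
  rw [← key]
  refine le_trans (setIntegral_mono_on (((c0 _).integrableOn_compact hK).mono_set hBK)
    ((c1.integrableOn_compact hK).mono_set hBK) hB fun z hz => ?_)
    (setIntegral_mono_set (c1.integrableOn_compact hK)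
      ((ae_restrict_iff' hK.measurableSet).2 (Eventually.of_forall fun z hz => ?_))
      hBK.eventuallyLE)
  · refine (Complex.le_def.1 (P272.Sz.det_le_det ((PosDef.one.smul
      (Complex.zero_lt_real.2 (mul_pos ht hκ))).add_posSemidef (S_psd h0 z)) ?_)).1
    have := (h2 z hz).smul t0
    convert this using 1
    rw [e1, smul_sub, smul_smul, Complex.ofReal_mul]
    abel
  · change 0 ≤ ((t : ℂ) • 1 + S y ψ z + cHess (fun z => t * v z) z).det.re
    rw [e1]
    exact (Complex.le_def.1 (((h1 z hz).smul t0).add (S_psd h0 z)).det_nonneg).1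

end Mon

open Mon in
theorem mon : MON := by
  intro D N y K B v κ ψ hK hy hB hBK hv hs hκ h1 h2 hψ h0
  have hM : ContinuousOn (M y ψ) K := fun z hz => (M_cont (hy z hz) hψ).continuousWithinAt
  have l1 := (lim hK hM hB hBK).tendsto
  have l2 := (lim hK hM hK.measurableSet subset_rfl).tendsto
  simp only [Complex.ofReal_zero, zero_smul, zero_add, M_det] at l1 l2
  have l3 : Tendsto (fun t : ℝ => t * κ) (𝓝 0) (𝓝 0) := by
    simpa using (tendsto_id (α := ℝ) (x := 𝓝 0)).mul_const κ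
  refine le_of_tendsto_of_tendsto
    (((l1.comp l3).const_mul (κ ^ D)).mono_left (nhdsWithin_le_nhds (s := Ioi 0)))
    ((l2.const_mul (κ ^ N)).mono_left (nhdsWithin_le_nhds (s := Ioi 0))) ?_
  filter_upwards [self_mem_nhdsWithin] with t ht
  have ht' : 0 < t := ht
  have k0 := step hK hy hB hBK hv hs hκ h1 h2 hψ h0 ht'
  have k1 : (t * κ) ^ N * ∫ z in B, (((t * κ : ℝ) : ℂ) • 1 + S y ψ z).det.re =
      (t * κ) ^ D * ∫ z in B, (((t * κ : ℝ) : ℂ) • 1 + M y ψ z).det.re := by
    simp only [← integral_const_mul, sylv_re]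
  have k2 : t ^ N * ∫ z in K, ((t : ℂ) • 1 + S y ψ z).det.re =
      t ^ D * ∫ z in K, ((t : ℂ) • 1 + M y ψ z).det.re := by
    simp only [← integral_const_mul, sylv_re]
  have k3 := mul_le_mul_of_nonneg_left k0 (pow_pos (mul_pos ht' hκ) N).le
  rw [k1, mul_pow t κ N, mul_comm (t ^ N), mul_assoc, k2, mul_pow, mul_assoc,
    mul_left_comm (κ ^ N)] at k3
  exact le_of_mul_le_mul_left k3 (pow_pos ht' D)

end Vale.Agent.P281Z.Jb
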