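import Vale.Agent.P281Z.Jb.ADefs
import Vale.Agent.P281Z.Ky.Gm
import Vale.Agent.P277Z.Coh.Vol2
import Vale.Agent.P284.H837.D.Gram
import Vale.Agent.P272.K.C2.PosLin

/-!
# P281Z, block JB: the lower bound for the direct image of the density
-/

set_option linter.unusedSectionVars false

open scoped Manifold ContDiff Topology ComplexOrder ENNReal Matrix
open MeasureTheory Filter Set Metric
open Vale.Agent.P272.K (Cm Chart At IsHermitian)
open Vale.Agent.P301.H599 (Fm)
open Vale.Agent.P277Z (Hol)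
open Vale.Agent.P277Z.Van (IsVol)
open Vale.Agent.P277Z.C1.Vol2 (det_cont det_pos)
open Vale.Agent.P281Z.Ky

noncomputable section

namespace Vale.Agent.P281Z.Jb

namespace Vl

theorem tr_nonneg {n : ℕ} {A : Matrix (Fin n) (Fin n) ℂ} (h : A.PosSemidef) : 0 ≤ A.trace.re :=
  (Complex.le_def.1 h.trace_nonneg).1

theorem pt {D N : ℕ} {w : Matrix (Fin D) (Fin D) ℂ} (hw : w.PosDef)
    (J : Matrix (Fin N) (Fin D) ℂ) :
    (J.map star * Jᵀ).det.re ≤ (1 + w.trace.re) ^ N * (J.map star * w⁻¹ * Jᵀ).det.re := by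
  have h0 : 0 < 1 + w.trace.re := by linarith [tr_nonneg hw.posSemidef]
  have h1 : ((1 + w.trace.re : ℝ) : ℂ) = 1 + w.trace := by
    push_cast
    rw [show ((w.trace.re : ℝ) : ℂ) = w.trace from
      Complex.ext rfl (by simpa using (Complex.le_def.1 hw.posSemidef.trace_nonneg).2)]
  have h2 := P284.H837.D.gram_ge h0 hw (by
    rw [h1, add_smul, one_smul, add_sub_assoc]
    exact Matrix.PosSemidef.one.add (P272.K.C2.trace_smul_one_sub_posSemidef hw.posSemidef)) Jᵀ
  rw [show Jᵀᴴ = J.map star from rfl, inv_pow, inv_mul_le_iff₀ (pow_pos h0 N)] at h2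
  exact h2

theorem meas {α β : Type} [TopologicalSpace α] [MeasurableSpace α] [OpensMeasurableSpace α]
    [TopologicalSpace β] [MeasurableSpace β] [BorelSpace β] {g : α → β} {O : Set α} {A : Set β}
    (hO : MeasurableSet O) (hg : ContinuousOn g O) (hA : MeasurableSet A) :
    MeasurableSet (O ∩ g ⁻¹' A) :=
  Subtype.image_preimage_coe O (g ⁻¹' A) ▸ hO.subtype_image (hg.domRestrict.measurable hA)

variable {D N : ℕ} {P : Mf D} {W K : Mf N} {w : Fm D P.X} {pr : P.X → K.X} {π : W.X → K.X}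
  {Z : Set K.X} {e : Chart N W.X} {e₀ : Chart N K.X}

theorem Inv.back (h : Inv π Z e e₀) {t : Cm N} (ht : t ∈ e₀.target) :
    ∃ x ∈ e.source, π x ∉ Z ∧ e x = t := by
  obtain ⟨a, x, b, c⟩ := h.src _ (e₀.map_target ht)
  exact ⟨x, b, c ▸ a, ((h.app x b (c ▸ a)).2.symm.trans (congrArg e₀ c)).trans (e₀.right_inv ht)⟩

theorem dens_cont (hw : IsHermitian w) {y : P.X → Cm N} {x : P.X}
    (hy : ∀ᶠ x' in 𝓝 x, ∀ a, Hol D (fun x => y x a) x') : ContinuousAt (dens w y) x := by
  have h := gm_cont hw hy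
  exact (Complex.continuous_re.continuousAt.comp
    (continuous_id.matrix_det.continuousAt.comp h)).div (continuousAt_const.add
      (Complex.continuous_re.continuousAt.comp (continuous_id.matrix_trace.continuousAt.comp h)))
    (by linarith [tr_nonneg (gm_psd (y := y) (x := x) hw)] : (0 : ℝ) < _).ne'

/-- the comparison of the two densities on a compact set -/
theorem cmp (hw : IsHermitian w) {ch : Chart D P.X} (hc : ch ∈ atlas (Cm D) P.X) {y : P.X → Cm N}
    {B : Set (Cm D)} (hB : IsCompact B) (hs : B ⊆ ch.target)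
    (hy : ∀ z ∈ B, ∀ᶠ x' in 𝓝 (ch.symm z), ∀ a, Hol D (fun x => y x a) x') :
    ∃ C > (0 : ℝ), ∀ z ∈ B, C * gH (fun z => y (ch.symm z)) z ≤
      dens w y (ch.symm z) * (w ch z).det.re := by
  have hA : ∀ z ∈ B, At ch (ch.symm z) := fun z hz => ⟨hc, ch.map_target (hs hz)⟩
  have hp : ∀ z ∈ B, (w ch z).PosDef := fun z hz => by
    have := hw.posDef ch _ (hA z hz)
    rwa [ch.right_inv (hs hz)] at this
  have h1 : ∀ z ∈ B, 0 < 1 + (w ch z).trace.re := fun z hz => by
    linarith [tr_nonneg (hp z hz).posSemidef]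
  have h2 : ∀ x, 0 < 1 + (gm w y x).trace.re := fun x => by
    linarith [tr_nonneg (gm_psd (y := y) (x := x) hw)]
  obtain ⟨C, c1, c2⟩ := hB.exists_forall_le' (f := fun z => (w ch z).det.re /
      ((1 + (w ch z).trace.re) ^ N * (1 + (gm w y (ch.symm z)).trace.re))) (a := 0)
    (fun z hz => by
      have k1 := w_cont hw (hA z hz)
      rw [ch.right_inv (hs hz)] at k1
      have k2 := (gm_cont hw (hy z hz)).comp (ch.continuousAt_symm (hs hz))
      refine ((det_cont hw hc).mono hs z hz).div (ContinuousAt.continuousWithinAt ?_)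
        (mul_pos (pow_pos (h1 z hz) N) (h2 _)).ne'
      exact ((continuousAt_const.add (Complex.continuous_re.continuousAt.comp
        (continuous_id.matrix_trace.continuousAt.comp k1))).pow N).mul (continuousAt_const.add
        (Complex.continuous_re.continuousAt.comp (continuous_id.matrix_trace.continuousAt.comp k2))))
    fun z hz => div_pos (det_pos hw hc (hs hz)) (mul_pos (pow_pos (h1 z hz) N) (h2 _))
  refine ⟨C, c1, fun z hz => ?_⟩
  have k1 := pt (hp z hz) (jc (fun z => y (ch.symm z)) z)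
  have k2 : gm w y (ch.symm z) = (jc (fun z => y (ch.symm z)) z).map star * (w ch z)⁻¹ *
      (jc (fun z => y (ch.symm z)) z)ᵀ := by
    rw [gm_eq hw (hy z hz).self_of_nhds (hA z hz), gmc, ch.right_inv (hs hz)]
  rw [← k2] at k1
  have k3 := (le_div_iff₀ (mul_pos (pow_pos (h1 z hz) N) (h2 _))).1 (c2 z hz)
  have k4 := P284.H837.D.det_psd_nonneg (gm_psd (y := y) (x := ch.symm z) hw)
  refine (mul_le_mul_of_nonneg_left k1 c1.le).trans ?_
  rw [dens, div_mul_eq_mul_div, le_div_iff₀ (h2 _)]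
  nlinarith [mul_le_mul_of_nonneg_left k3 k4]

variable [MeasurableSpace P.X] [BorelSpace P.X] {μ : Measure P.X}

theorem measB (hpr : HolM D N pr) {A : Set (Cm N)} (hA : MeasurableSet A) :
    MeasurableSet (pr ⁻¹' (e₀.source ∩ e₀ ⁻¹' A)) :=
  meas (g := fun x => e₀ (pr x)) (e₀.open_source.preimage hpr.cont).measurableSet
    (e₀.continuousOn.comp hpr.cont.continuousOn fun _ h => h) hA

variable (w μ pr e₀) in
/-- the lower bound holds on a measurable set which contains `S` -/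
def Lw (S : Set (Cm N)) : Prop := ∃ S', S ⊆ S' ∧ MeasurableSet S' ∧ ∃ c > (0 : ℝ), Low w μ pr e₀ c S'

theorem lw_empty : Lw w pr e₀ μ ∅ := ⟨∅, Subset.rfl, .empty, 1, one_pos, fun A _ h _ => by
  simp [subset_eq_empty h rfl]⟩

theorem Lw.mono {S T : Set (Cm N)} (h : Lw w pr e₀ μ T) (k : S ⊆ T) : Lw w pr e₀ μ S :=
  let ⟨S', a, b⟩ := h
  ⟨S', k.trans a, b⟩

theorem Lw.union (hpr : HolM D N pr) {S T : Set (Cm N)} (h : Lw w pr e₀ μ S)
    (k : Lw w pr e₀ μ T) : Lw w pr e₀ μ (S ∪ T) := by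
  obtain ⟨S', a1, a2, c, a3, a4⟩ := h
  obtain ⟨T', b1, b2, c', b3, b4⟩ := k
  refine ⟨S' ∪ T', union_subset_union a1 b1, a2.union b2, min c c', lt_min a3 b3,
    fun A hA h1 h2 => ?_⟩
  rw [← measure_inter_add_sdiff A a2, mul_add,
    ← lintegral_inter_add_sdiff _ _ (measB (e₀ := e₀) hpr a2)]
  refine add_le_add ?_ ?_
  · refine (mul_le_mul_left (ENNReal.ofReal_le_ofReal (min_le_left _ _)) _).trans
      ((a4 _ (hA.inter a2) inter_subset_right (inter_subset_left.trans h2)).trans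
        (lintegral_mono_set fun x hx => ⟨⟨hx.1, hx.2.1⟩, hx.1, hx.2.2⟩))
  · refine (mul_le_mul_left (ENNReal.ofReal_le_ofReal (min_le_right _ _)) _).trans
      ((b4 _ (hA.diff a2) (fun t ht => (h1 ht.1).resolve_left ht.2) (sdiff_subset.trans h2)).trans
        (lintegral_mono_set fun x hx => ⟨⟨hx.1, hx.2.1⟩, fun k => hx.2.2 k.2⟩))

/-- the integral over a set is at least the integral in a chart -/
theorem chart_le (hw : IsHermitian w) (hμ : IsVol w μ) (hpr : HolM D N pr) (h0 : Cd e₀)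
    {ch : Chart D P.X} (hc : ch ∈ atlas (Cm D) P.X) {A : Set (Cm N)} (hA : MeasurableSet A)
    {T : Set (Cm D)} (hT : MeasurableSet T) (hs : T ⊆ ch.target) {g : Cm D → ℝ≥0∞}
    (hg : ∀ z ∈ T, ch.symm z ∈ pr ⁻¹' (e₀.source ∩ e₀ ⁻¹' A) ∧ g z ≤
      ENNReal.ofReal (dens w (fun x => e₀ (pr x)) (ch.symm z)) * ENNReal.ofReal (w ch z).det.re) :
    ∫⁻ z in T, g z ≤ ∫⁻ x in pr ⁻¹' (e₀.source ∩ e₀ ⁻¹' A),
      ENNReal.ofReal (dens w (fun x => e₀ (pr x)) x) ∂μ := by
  classical
  have hO := e₀.open_source.preimage hpr.cont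
  have hB := measB (e₀ := e₀) hpr hA
  set F := fun x => ENNReal.ofReal (dens w (fun x => e₀ (pr x)) x) with hF
  have h1 : Measurable ((pr ⁻¹' e₀.source).piecewise F 0) :=
    ContinuousOn.measurable_piecewise (fun x hx => (ENNReal.continuous_ofReal.continuousAt.comp
      (dens_cont hw (mem_of_superset (hO.mem_nhds hx) fun x' k => h0.coord hpr k))).continuousWithinAt)
      continuousOn_const hO.measurableSet
  have h2 := hμ ch hc _ (h1.indicator (hB.inter ch.open_source.measurableSet))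
    fun x hx => indicator_of_notMem (fun k => hx k.2) _
  rw [← lintegral_indicator hB]
  refine le_trans ?_ (h2.ge.trans (lintegral_mono fun x => ?_))
  · refine (setLIntegral_mono' hT fun z hz => ?_).trans (lintegral_mono_set hs)
    rw [indicator_of_mem (show _ ∈ _ ∩ _ from ⟨(hg z hz).1, ch.map_target (hs hz)⟩),
      piecewise_eq_of_mem _ _ _ (show _ ∈ pr ⁻¹' e₀.source from (hg z hz).1.1)]
    exact (hg z hz).2
  · by_cases k : x ∈ pr ⁻¹' (e₀.source ∩ e₀ ⁻¹' A) ∩ ch.source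
    · rw [indicator_of_mem k, indicator_of_mem k.1,
        piecewise_eq_of_mem _ _ _ (show _ ∈ pr ⁻¹' e₀.source from k.1.1)]
    · rw [indicator_of_notMem k]
      exact zero_le

end Vl

open Vl

theorem vol_of (H : LEL) : VOL := by
  intro N d P W K _ _ w μ pr π Z e e₀ hw hμ hpr hπ hP he h5 hI
  have h4 : closedBall 0 4 ⊆ e.target := (closedBall_subset_closedBall (by norm_num)).trans h5
  have loc : ∀ (U : Set P.X) (f : P.X → W.X), IsOpen U →
      (∀ c ∈ U, HolA (N + d) N f c ∧ π (f c) = pr c) → ∀ c ∈ U, f c ∈ e.source →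
      ∃ t ∈ 𝓝 c, Lw w pr e₀ μ (e '' (f '' t)) := by
    intro U f hU hf c hc hc'
    have hch := at_chartAt (p := N + d) c
    set ch := chartAt (Cm (N + d)) c
    have hV : IsOpen (U ∩ f ⁻¹' e.source) := ContinuousOn.isOpen_inter_preimage
      (fun x hx => (hf x hx).1.cont.continuousWithinAt) hU e.open_source
    obtain ⟨R, hR, hb⟩ := nhds_basis_closedBall.mem_iff.1 (inter_mem
      (ch.open_target.mem_nhds (ch.map_source hch.2)) (ev_sy hch.2 (hV.mem_nhds ⟨hc, hc'⟩)))
    obtain ⟨r, rfl⟩ : ∃ r, R = 2 * r := ⟨R / 2, by ring⟩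
    have hr : 0 < r := by linarith
    have hy : ∀ z ∈ closedBall (ch c) (2 * r), ∀ᶠ x' in 𝓝 (ch.symm z),
        ∀ a, Hol (N + d) (fun x => e (f x) a) x' := fun z hz =>
      mem_of_superset (hV.mem_nhds (hb hz).2) fun x k a => (hf x k.1).1.hol (a := fun y => e y a)
        (he.hol_comp (g := fun z => z a) k.2
          ((ContinuousLinearMap.proj (R := ℂ) (φ := fun _ : Fin N => ℂ) a).analyticAt _))
    have ha : AnalyticOnNhd ℂ (fun z => e (f (ch.symm z))) (closedBall (ch c) (2 * r)) :=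
      fun z hz => by
        have := an_of_hol (y := fun x => e (f x)) (hy z hz).self_of_nhds
          (⟨hch.1, ch.map_target (hb hz).1⟩ : At ch _)
        rwa [ch.right_inv (hb hz).1] at this
    obtain ⟨c₁, a1, a2⟩ := H N d _ _ r hr ha
    obtain ⟨C, b1, b2⟩ := cmp (y := fun x => e (f x)) hw hch.1 (isCompact_closedBall _ _)
      (fun z hz => (hb hz).1) hy
    refine ⟨ch.symm '' closedBall (ch c) r, ?_, _, ?_, ((isCompact_closedBall (ch c) r).image_of_continuousOn
      (ha.continuousOn.mono (closedBall_subset_closedBall (by linarith)))).measurableSet,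
      C * c₁, mul_pos b1 a1, fun A hA k1 k2 => ?_⟩
    · have := ch.symm.image_mem_nhds (ch.map_source hch.2) (closedBall_mem_nhds _ hr)
      rwa [ch.left_inv hch.2] at this
    · rw [image_image, image_image]
    rw [ENNReal.ofReal_mul b1.le, mul_assoc]
    refine (mul_le_mul_right (a2 A hA k1) _).trans ?_
    rw [← lintegral_const_mul' _ _ ENNReal.ofReal_ne_top]
    refine chart_le hw hμ hpr hI.cd hch.1 hA (meas measurableSet_closedBall ha.continuousOn hA)
      (fun z hz => (hb hz.1).1) fun z hz => ?_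
    have hz' := (hb hz.1).2
    obtain ⟨x, p1, p2, p3⟩ := Inv.back hI (k2 hz.2)
    obtain rfl : x = f (ch.symm z) := e.injOn p1 hz'.2 p3
    have p4 := hI.app _ p1 p2
    rw [(hf _ hz'.1).2] at p4
    refine ⟨⟨p4.1, show e₀ _ ∈ A from p4.2 ▸ hz.2⟩, ?_⟩
    have p5 : (fun x => e₀ (pr x)) =ᶠ[𝓝 (ch.symm z)] fun x => e (f x) := by
      filter_upwards [hV.mem_nhds hz', (e₀.open_source.preimage hpr.cont).mem_nhds p4.1] with x q1 q2
      rw [← (hf x q1.1).2]
      exact (hI.app _ q1.2 ((hf x q1.1).2 ▸ (hI.src _ q2).1)).2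
    rw [← ENNReal.ofReal_mul b1.le, ← ENNReal.ofReal_mul' (det_pos hw hch.1 (hb hz.1).1).le, dens,
      gm_congr p5]
    exact ENNReal.ofReal_le_ofReal (b2 z hz.1)
  have main : Lw w pr e₀ μ (e '' (cBl e 4 \ π ⁻¹' Z)) := by
    refine (cBl_cpt h4).induction_on (p := fun T => Lw w pr e₀ μ (e '' (T \ π ⁻¹' Z)))
      (by simpa using lw_empty) (fun s t k h => h.mono (image_mono (sdiff_subset_sdiff_left k)))
      (fun s t a b => by rw [union_sdiff_distrib, image_union]; exact a.union hpr b) fun x₀ _ => ?_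
    obtain ⟨C, U, f, c1, c2, c3, c4, c5⟩ := hP x₀
    have c6 : IsCompact (C ∩ f ⁻¹' cBl e 4) := c1.of_isClosed_subset
      (ContinuousOn.preimage_isClosed_of_isClosed
        (fun x hx => (c4 x (c3 hx)).1.cont.continuousWithinAt) c1.isClosed (cBl_cpt h4).isClosed)
      inter_subset_left
    have c7 : Lw w pr e₀ μ (e '' (f '' (C ∩ f ⁻¹' cBl e 4))) := by
      refine c6.induction_on (p := fun T => Lw w pr e₀ μ (e '' (f '' T)))
        (by simpa using lw_empty) (fun s t k h => h.mono (image_mono (image_mono k)))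
        (fun s t a b => by rw [image_union, image_union]; exact a.union hpr b) fun c hc => ?_
      obtain ⟨t, a, b⟩ := loc U f c2 c4 c (c3 hc.1) ((mem_cBl h4).1 hc.2).1
      exact ⟨t, mem_nhdsWithin_of_mem_nhds a, b⟩
    refine ⟨_, inter_mem (mem_nhdsWithin_of_mem_nhds c5) self_mem_nhdsWithin,
      c7.mono (image_mono fun x hx => ?_)⟩
    obtain ⟨c, a, rfl⟩ := hx.1.1 hx.2
    exact ⟨c, ⟨a, hx.1.2⟩, rfl⟩
  obtain ⟨S, a, -, c, b, k⟩ := main
  refine ⟨c, b, fun A hA k1 k2 => k A hA (fun t ht => a ?_) k2⟩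
  obtain ⟨x, p1, p2, rfl⟩ := Inv.back hI (k2 ht)
  exact ⟨x, ⟨(mem_cBl h4).2 ⟨p1, ball_subset_closedBall (k1 ht)⟩, p2⟩, rfl⟩

end Vale.Agent.P281Z.Jb
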